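import Mathlib

/-!
P342: Boolean Fourier notions for the analytic lemma (blocks A2, A4).
-/

set_option autoImplicit false

namespace Vale.Agent.P342.BF

open Finset

section

variable {X : Type} [Fintype X] [DecidableEq X]

/-- average over the Boolean cube -/
noncomputable def bavg (f : (X → Bool) → ℝ) : ℝ := (∑ x, f x) / 2 ^ Fintype.card X

/-- characters -/
def chi (S : Finset X) (x : X → Bool) : ℝ := ∏ i ∈ S, if x i then (-1 : ℝ) else 1

/-- Fourier coefficient -/
noncomputable def four (f : (X → Bool) → ℝ) (S : Finset X) : ℝ := bavg fun x => f x * chi S x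

/-- discrete derivative in direction `i` -/
noncomputable def dder (f : (X → Bool) → ℝ) (i : X) (x : X → Bool) : ℝ :=
  (f (Function.update x i true) - f (Function.update x i false)) / 2

/-- `x` on `J`, `y` off `J` -/
def bmix (J : Finset X) (x y : X → Bool) : X → Bool := fun i => if i ∈ J then x i else y i

/-- expected conditional variance given the coordinates in `J` -/
noncomputable def bcvar (J : Finset X) (f : (X → Bool) → ℝ) : ℝ :=
  bavg fun x => (f x - bavg fun y => f (bmix J x y)) ^ 2

end

/-- BLOCK A2 (level-`d` inequality, from Bonami 4/3 -> 2 and `‖g‖_{4/3}^2 ≤ ‖g‖_1 ‖g‖_2`). -/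
def LevelStmt : Prop :=
  ∀ (X : Type) [Fintype X] [DecidableEq X] (g : (X → Bool) → ℝ) (d : ℕ),
    ∑ S ∈ univ.filter (fun S : Finset X => S.card ≤ d), four g S ^ 2 ≤
      3 ^ d * (bavg (fun x => |g x|) * Real.sqrt (bavg fun x => g x ^ 2))

/-- BLOCK A4 (Boolean junta variance lemma). -/
def BoolJuntaStmt : Prop :=
  ∀ (X : Type) [Fintype X] [DecidableEq X] (f : (X → Bool) → ℝ) (J : Finset X) (d : ℕ), 0 < d →
    bcvar J f ≤ (∑ i, bavg fun x => dder f i x ^ 2) / d +
      3 ^ d * ∑ i ∈ Jᶜ, bavg (fun x => |dder f i x|) * Real.sqrt (bavg fun x => dder f i x ^ 2)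

end Vale.Agent.P342.BF
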