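import Vale.Agent.P342.H780.BoolDefs

/-!
P342, block A4: Boolean junta variance lemma, from the level-`d` inequality.
-/

set_option autoImplicit false

namespace Vale.Agent.P342.BF

open Finset

variable {X : Type} [Fintype X] [DecidableEq X]

/-- sign of a bit -/
def sg (b : Bool) : ℝ := if b then (-1 : ℝ) else 1

omit [Fintype X] [DecidableEq X] in
theorem chi_eq (S : Finset X) (x : X → Bool) : chi S x = ∏ i ∈ S, sg (x i) := rfl

theorem sg_mul_self (b : Bool) : sg b * sg b = 1 := by cases b <;> simp [sg]

theorem sum_pi_prod (φ : X → Bool → ℝ) :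
    ∑ x : X → Bool, ∏ i, φ i (x i) = ∏ i, (φ i true + φ i false) := by
  have h := Finset.prod_univ_sum (fun _ : X => (univ : Finset Bool)) φ
  rw [Fintype.piFinset_univ] at h
  rw [← h]
  refine Finset.prod_congr rfl fun i _ => ?_
  simp

theorem bavg_add (f g : (X → Bool) → ℝ) : bavg (fun x => f x + g x) = bavg f + bavg g := by
  simp [bavg, sum_add_distrib, add_div]

theorem bavg_sub (f g : (X → Bool) → ℝ) : bavg (fun x => f x - g x) = bavg f - bavg g := by
  simp [bavg, sum_sub_distrib, sub_div]

theorem bavg_const_mul (c : ℝ) (f : (X → Bool) → ℝ) : bavg (fun x => c * f x) = c * bavg f := by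
  simp [bavg, ← mul_sum, mul_div_assoc]

theorem bavg_sum {ι : Type*} (s : Finset ι) (f : ι → (X → Bool) → ℝ) :
    bavg (fun x => ∑ j ∈ s, f j x) = ∑ j ∈ s, bavg (f j) := by
  simp only [bavg]
  rw [sum_comm, sum_div]

theorem chi_mul_chi (S T : Finset X) (x : X → Bool) :
    chi S x * chi T x =
      ∏ i, ((if i ∈ S then sg (x i) else 1) * (if i ∈ T then sg (x i) else 1)) := by
  rw [prod_mul_distrib, chi_eq, chi_eq]
  congr 1 <;> simp [Finset.prod_ite_mem]

theorem bavg_chi_mul_chi (S T : Finset X) :
    bavg (fun x => chi S x * chi T x) = if S = T then 1 else 0 := by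
  unfold bavg
  simp_rw [chi_mul_chi]
  rw [sum_pi_prod (fun i b => (if i ∈ S then sg b else 1) * (if i ∈ T then sg b else 1))]
  split_ifs with h
  · subst h
    rw [Finset.prod_congr rfl (g := fun _ => (2 : ℝ))]
    · simp
    · intro i _
      by_cases hi : i ∈ S <;> simp [hi, sg] <;> norm_num
  · have : ∃ i, ¬ (i ∈ S ↔ i ∈ T) := by
      by_contra hc
      push Not at hc
      exact h (Finset.ext hc)
    obtain ⟨i, hi⟩ := this
    rw [Finset.prod_eq_zero (mem_univ i), zero_div]
    by_cases h1 : i ∈ S <;> by_cases h2 : i ∈ T <;> simp_all [sg]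

theorem sum_chi_mul_chi (x y : X → Bool) :
    ∑ S : Finset X, chi S x * chi S y = if x = y then 2 ^ Fintype.card X else 0 := by
  have h : ∀ S : Finset X, chi S x * chi S y = ∏ i ∈ S, (sg (x i) * sg (y i)) := by
    intro S; rw [chi_eq, chi_eq, prod_mul_distrib]
  simp_rw [h]
  have h2 := Finset.prod_one_add (f := fun i => sg (x i) * sg (y i)) (univ : Finset X)
  rw [Finset.powerset_univ] at h2
  rw [← h2]
  split_ifs with hxy
  · subst hxy
    rw [Finset.prod_congr rfl (g := fun _ => (2 : ℝ))]
    · simp
    · intro i _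
      rw [sg_mul_self]; norm_num
  · have : ∃ i, x i ≠ y i := by
      by_contra hc
      push Not at hc
      exact hxy (funext hc)
    obtain ⟨i, hi⟩ := this
    refine Finset.prod_eq_zero (mem_univ i) ?_
    cases hx : x i <;> cases hy : y i <;> simp_all [sg]

/-- Fourier inversion -/
theorem four_inv (f : (X → Bool) → ℝ) (x : X → Bool) :
    f x = ∑ S, four f S * chi S x := by
  have h : ∀ S : Finset X, four f S * chi S x =
      (∑ y, f y * (chi S y * chi S x)) / 2 ^ Fintype.card X := by
    intro S
    unfold four bavg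
    rw [div_mul_eq_mul_div, sum_mul]
    congr 1
    exact sum_congr rfl fun y _ => by ring
  simp_rw [h]
  rw [← sum_div, sum_comm]
  simp_rw [← mul_sum, sum_chi_mul_chi]
  simp

theorem bavg_sq_sum (a : Finset X → ℝ) :
    bavg (fun x => (∑ S, a S * chi S x) ^ 2) = ∑ S, a S ^ 2 := by
  have h : (fun x : X → Bool => (∑ S, a S * chi S x) ^ 2) =
      fun x => ∑ S, ∑ T, (a S * a T) * (chi S x * chi T x) := by
    funext x
    rw [sq, sum_mul_sum]
    exact sum_congr rfl fun S _ => sum_congr rfl fun T _ => by ring
  rw [h, bavg_sum]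
  refine sum_congr rfl fun S _ => ?_
  rw [bavg_sum]
  simp_rw [bavg_const_mul, bavg_chi_mul_chi]
  simp [sq]

theorem four_sum (a : Finset X → ℝ) (T : Finset X) :
    four (fun x => ∑ S, a S * chi S x) T = a T := by
  unfold four
  have h : (fun x : X → Bool => (∑ S, a S * chi S x) * chi T x) =
      fun x => ∑ S, a S * (chi S x * chi T x) := by
    funext x
    rw [sum_mul]
    exact sum_congr rfl fun S _ => by ring
  rw [h, bavg_sum]
  simp_rw [bavg_const_mul, bavg_chi_mul_chi]
  simp

theorem parseval (f : (X → Bool) → ℝ) : bavg (fun x => f x ^ 2) = ∑ S, four f S ^ 2 := by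
  rw [← bavg_sq_sum]
  congr 1
  funext x
  rw [← four_inv]

/-! ### conditional variance -/

omit [Fintype X] in
theorem chi_bmix (S J : Finset X) (x y : X → Bool) :
    chi S (bmix J x y) = chi (S ∩ J) x * chi (S \ J) y := by
  rw [chi_eq, chi_eq, chi_eq]
  have : S = (S ∩ J) ∪ (S \ J) := by
    ext i; simp only [mem_union, mem_inter, mem_sdiff]; tauto
  conv_lhs => rw [this]
  rw [prod_union (by
    rw [disjoint_left]; intro i hi hi'
    simp only [mem_inter, mem_sdiff] at hi hi'; tauto)]
  congr 1
  · refine prod_congr rfl fun i hi => ?_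
    simp only [mem_inter] at hi
    simp [bmix, hi.2]
  · refine prod_congr rfl fun i hi => ?_
    simp only [mem_sdiff] at hi
    simp [bmix, hi.2]

omit [Fintype X] [DecidableEq X] in
theorem chi_empty (x : X → Bool) : chi (∅ : Finset X) x = 1 := by simp [chi]

theorem bavg_chi (S : Finset X) : bavg (fun x => chi S x) = if S = ∅ then 1 else 0 := by
  have := bavg_chi_mul_chi S ∅
  simpa [chi_empty] using this

theorem cexp_eq (f : (X → Bool) → ℝ) (J : Finset X) (x : X → Bool) :
    bavg (fun y => f (bmix J x y)) = ∑ S, (if S ⊆ J then four f S else 0) * chi S x := by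
  have h : (fun y => f (bmix J x y)) =
      fun y => ∑ S, (four f S * chi (S ∩ J) x) * chi (S \ J) y := by
    funext y
    rw [four_inv f (bmix J x y)]
    exact sum_congr rfl fun S _ => by rw [chi_bmix]; ring
  rw [h, bavg_sum]
  refine sum_congr rfl fun S _ => ?_
  rw [bavg_const_mul, bavg_chi]
  by_cases hS : S ⊆ J
  · simp [hS, sdiff_eq_empty_iff_subset, inter_eq_left.2 hS]
  · simp [hS, sdiff_eq_empty_iff_subset]

theorem bcvar_eq (f : (X → Bool) → ℝ) (J : Finset X) :
    bcvar J f = ∑ S ∈ univ.filter (fun S : Finset X => ¬ S ⊆ J), four f S ^ 2 := by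
  unfold bcvar
  have h : (fun x => (f x - bavg fun y => f (bmix J x y)) ^ 2) =
      fun x => (∑ S, (if S ⊆ J then 0 else four f S) * chi S x) ^ 2 := by
    funext x
    rw [cexp_eq]
    congr 1
    conv_lhs => rw [four_inv f x]
    rw [← sum_sub_distrib]
    refine sum_congr rfl fun S _ => ?_
    split_ifs <;> ring
  rw [h, bavg_sq_sum, sum_filter]
  refine sum_congr rfl fun S _ => ?_
  split_ifs <;> simp_all

/-! ### derivatives -/

theorem chi_update (S : Finset X) (i : X) (b : Bool) (x : X → Bool) :
    chi S (Function.update x i b) = if i ∈ S then sg b * chi (S.erase i) x else chi S x := by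
  split_ifs with h
  · rw [chi_eq, ← mul_prod_erase S _ h, chi_eq]
    congr 1
    · simp
    · refine prod_congr rfl fun j hj => ?_
      rw [Function.update_of_ne (ne_of_mem_erase hj)]
  · rw [chi_eq, chi_eq]
    refine prod_congr rfl fun j hj => ?_
    rw [Function.update_of_ne (by rintro rfl; exact h hj)]

theorem dder_eq (f : (X → Bool) → ℝ) (i : X) (x : X → Bool) :
    dder f i x = ∑ T, (if i ∈ T then 0 else - four f (insert i T)) * chi T x := by
  unfold dder
  rw [four_inv f (Function.update x i true), four_inv f (Function.update x i false),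
    ← sum_sub_distrib, sum_div]
  have h1 : ∀ S : Finset X, (four f S * chi S (Function.update x i true) -
      four f S * chi S (Function.update x i false)) / 2 =
      if i ∈ S then - four f S * chi (S.erase i) x else 0 := by
    intro S
    rw [chi_update, chi_update]
    split_ifs
    · simp [sg]; ring
    · simp
  rw [sum_congr rfl fun S _ => h1 S]
  have h2 : ∀ T : Finset X, (if i ∈ T then 0 else - four f (insert i T)) * chi T x =
      if i ∈ T then 0 else - four f (insert i T) * chi T x := by
    intro T; split_ifs <;> ring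
  rw [sum_congr rfl fun T _ => h2 T, ← sum_filter]
  have h3 : ∀ T : Finset X, (if i ∈ T then 0 else - four f (insert i T) * chi T x) =
      if ¬ i ∈ T then - four f (insert i T) * chi T x else 0 := by
    intro T; split_ifs <;> simp_all
  rw [sum_congr rfl fun T _ => h3 T, ← sum_filter]
  refine sum_bij' (fun S _ => S.erase i) (fun T _ => insert i T) ?_ ?_ ?_ ?_ ?_
  · intro S hS; simp
  · intro T hT; simp
  · intro S hS
    simp only [mem_filter, mem_univ, true_and] at hS
    exact insert_erase hS
  · intro T hT
    simp only [mem_filter, mem_univ, true_and] at hT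
    exact erase_insert hT
  · intro S hS
    simp only [mem_filter, mem_univ, true_and] at hS
    rw [insert_erase hS]

theorem four_dder (f : (X → Bool) → ℝ) (i : X) (T : Finset X) :
    four (dder f i) T = if i ∈ T then 0 else - four f (insert i T) := by
  have : dder f i = fun x => ∑ T, (if i ∈ T then 0 else - four f (insert i T)) * chi T x := by
    funext x; exact dder_eq f i x
  rw [this, four_sum]

theorem dder_sq_filter (f : (X → Bool) → ℝ) (i : X) (p : Finset X → Prop) [DecidablePred p] :
    ∑ S ∈ univ.filter (fun S : Finset X => i ∈ S ∧ p S), four f S ^ 2 =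
      ∑ T ∈ univ.filter (fun T : Finset X => ¬ i ∈ T ∧ p (insert i T)),
        four (dder f i) T ^ 2 := by
  refine sum_bij' (fun S _ => S.erase i) (fun T _ => insert i T) ?_ ?_ ?_ ?_ ?_
  · intro S hS
    simp only [mem_filter, mem_univ, true_and] at hS ⊢
    refine ⟨by simp, ?_⟩
    rw [insert_erase hS.1]; exact hS.2
  · intro T hT
    simp only [mem_filter, mem_univ, true_and] at hT ⊢
    exact ⟨by simp, hT.2⟩
  · intro S hS
    simp only [mem_filter, mem_univ, true_and] at hS
    exact insert_erase hS.1
  · intro T hT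
    simp only [mem_filter, mem_univ, true_and] at hT
    exact erase_insert hT.1
  · intro S hS
    simp only [mem_filter, mem_univ, true_and] at hS
    rw [four_dder]
    simp [insert_erase hS.1]

theorem bavg_dder_sq (f : (X → Bool) → ℝ) (i : X) :
    bavg (fun x => dder f i x ^ 2) = ∑ S ∈ univ.filter (fun S : Finset X => i ∈ S),
      four f S ^ 2 := by
  rw [parseval]
  have h := dder_sq_filter f i (fun _ => True)
  simp only [and_true] at h
  rw [h]
  symm
  refine sum_subset (subset_univ _) fun T _ hT => ?_
  simp only [mem_filter, mem_univ, true_and, not_not] at hT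
  rw [four_dder]; simp [hT]

theorem boolJunta (hL : LevelStmt) : BoolJuntaStmt := by
  intro X _ _ f J d hd
  rw [bcvar_eq]
  have hd' : (0 : ℝ) < d := by exact_mod_cast hd
  -- high part
  have hhigh : ∑ S ∈ univ.filter (fun S : Finset X => d ≤ S.card), four f S ^ 2 ≤
      (∑ i, bavg fun x => dder f i x ^ 2) / d := by
    rw [le_div_iff₀ hd', sum_mul]
    have h1 : ∑ i, bavg (fun x => dder f i x ^ 2) = ∑ S : Finset X, (S.card : ℝ) * four f S ^ 2 := by
      simp_rw [bavg_dder_sq, sum_filter]
      rw [sum_comm]
      refine sum_congr rfl fun S _ => ?_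
      rw [← sum_filter, sum_const, nsmul_eq_mul]
      congr 2
      simp
    rw [h1]
    calc ∑ S ∈ univ.filter (fun S : Finset X => d ≤ S.card), four f S ^ 2 * d
        ≤ ∑ S ∈ univ.filter (fun S : Finset X => d ≤ S.card), (S.card : ℝ) * four f S ^ 2 := by
          refine sum_le_sum fun S hS => ?_
          simp only [mem_filter, mem_univ, true_and] at hS
          have : (d : ℝ) ≤ S.card := by exact_mod_cast hS
          nlinarith [sq_nonneg (four f S)]
      _ ≤ _ := sum_le_sum_of_subset_of_nonneg (subset_univ _) fun S _ _ => by positivity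
  -- low part
  have hlow : ∑ S ∈ univ.filter (fun S : Finset X => ¬ S ⊆ J ∧ S.card < d), four f S ^ 2 ≤
      3 ^ d * ∑ i ∈ Jᶜ, bavg (fun x => |dder f i x|) *
        Real.sqrt (bavg fun x => dder f i x ^ 2) := by
    calc ∑ S ∈ univ.filter (fun S : Finset X => ¬ S ⊆ J ∧ S.card < d), four f S ^ 2
        ≤ ∑ S ∈ univ.filter (fun S : Finset X => ¬ S ⊆ J ∧ S.card < d),
            ∑ i ∈ Jᶜ, (if i ∈ S then four f S ^ 2 else 0) := by
          refine sum_le_sum fun S hS => ?_
          simp only [mem_filter, mem_univ, true_and] at hS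
          obtain ⟨i, hiS, hiJ⟩ := not_subset.1 hS.1
          have := single_le_sum (f := fun i => if i ∈ S then four f S ^ 2 else 0)
            (s := Jᶜ) (fun j _ => by split_ifs <;> positivity) (mem_compl.2 hiJ)
          simpa [hiS] using this
      _ = ∑ i ∈ Jᶜ, ∑ S ∈ univ.filter (fun S : Finset X => ¬ S ⊆ J ∧ S.card < d),
            (if i ∈ S then four f S ^ 2 else 0) := sum_comm
      _ ≤ ∑ i ∈ Jᶜ, ∑ S ∈ univ.filter (fun S : Finset X => i ∈ S ∧ S.card < d),
            four f S ^ 2 := by
          refine sum_le_sum fun i _ => ?_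
          rw [← sum_filter, filter_filter]
          refine sum_le_sum_of_subset_of_nonneg ?_ fun _ _ _ => sq_nonneg _
          intro S hS
          simp only [mem_filter, mem_univ, true_and] at hS ⊢
          exact ⟨hS.2, hS.1.2⟩
      _ ≤ ∑ i ∈ Jᶜ, 3 ^ d * (bavg (fun x => |dder f i x|) *
            Real.sqrt (bavg fun x => dder f i x ^ 2)) := by
          refine sum_le_sum fun i _ => ?_
          rw [dder_sq_filter f i (fun S => S.card < d)]
          refine le_trans ?_ (hL X (dder f i) d)
          refine sum_le_sum_of_subset_of_nonneg ?_ fun _ _ _ => sq_nonneg _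
          intro T hT
          simp only [mem_filter, mem_univ, true_and] at hT ⊢
          have := card_insert_of_notMem hT.1
          omega
      _ = _ := by rw [mul_sum]
  calc ∑ S ∈ univ.filter (fun S : Finset X => ¬ S ⊆ J), four f S ^ 2
      ≤ ∑ S ∈ univ.filter (fun S : Finset X => d ≤ S.card) ∪
          univ.filter (fun S : Finset X => ¬ S ⊆ J ∧ S.card < d), four f S ^ 2 := by
        refine sum_le_sum_of_subset_of_nonneg ?_ fun _ _ _ => sq_nonneg _
        intro S hS
        simp only [mem_filter, mem_univ, true_and, mem_union] at hS ⊢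
        rcases le_or_gt d S.card with h | h
        · exact Or.inl h
        · exact Or.inr ⟨hS, h⟩
    _ = ∑ S ∈ univ.filter (fun S : Finset X => d ≤ S.card), four f S ^ 2 +
          ∑ S ∈ univ.filter (fun S : Finset X => ¬ S ⊆ J ∧ S.card < d), four f S ^ 2 := by
        rw [sum_union]
        rw [disjoint_left]
        intro S h1 h2
        simp only [mem_filter, mem_univ, true_and] at h1 h2
        omega
    _ ≤ _ := add_le_add hhigh hlow

end Vale.Agent.P342.BF
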